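import Vale.Agent.P164.X.Defs8

/-!
# The curve generating a Loewner chain, and the laws of the gauge measures of its segments
-/

namespace Vale.Agent.P164R

open MeasureTheory ProbabilityTheory Set Vale.Agent.P164
open scoped NNReal ENNReal

/-- The unbounded component of the open upper half-plane minus `γ [0,t]`. -/
def outer (γ : ℝ → ℂ) (t : ℝ) : Set ℂ := unbComp ({z : ℂ | 0 < z.im} \ γ '' Icc 0 t)

/-- `γ` is a continuous curve in the closed upper half-plane, started at `W 0`, which generates the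
Loewner chain driven by `W`: for every `t ≥ 0` the Loewner solution started at any point `z` of the
unbounded component of the half-plane minus `γ [0,t]` exists up to time `t`, and its value `G z` at
time `t` is a conformal map of this component onto the half-plane with
`G z = z + 2 t / z + O(|z|⁻²)` at infinity. -/
structure Generates (W : ℝ → ℝ) (γ : ℝ → ℂ) : Prop where
  cont : ContinuousOn γ (Ici 0)
  start : γ 0 = (W 0 : ℂ)
  im_nonneg : ∀ t : ℝ, 0 ≤ t → 0 ≤ (γ t).im
  conf : ∀ t : ℝ, 0 ≤ t → ∃ G : ℂ → ℂ,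
    (∀ z ∈ outer γ t, ∃ g : ℝ → ℂ, IsLoewnerSol W z t g ∧ g t = G z) ∧
    DifferentiableOn ℂ G (outer γ t) ∧ BijOn G (outer γ t) {w : ℂ | 0 < w.im} ∧
    ∃ C R : ℝ, ∀ z ∈ outer γ t, R ≤ ‖z‖ → ‖G z - (z + 2 * t / z)‖ ≤ C / ‖z‖ ^ 2

universe u

/-- For every standard Brownian motion `B` on any probability space, almost surely: there is a curve
generating the Loewner chain driven by `√κ B`, it is unique, and the `k`-measures of all its
segments `γ [s,t]`, `0 < s < t`, have the property `p`. -/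
def SegmentLaw (κ : ℝ) (k : ℝ → ℝ) (p : ℝ≥0∞ → Prop) : Prop :=
  ∀ (Ω : Type u) [MeasurableSpace Ω] (P : Measure Ω) (B : ℝ≥0 → Ω → ℝ), IsBrownianReal B P →
    ∀ᵐ ω ∂P, ∃ γ : ℝ → ℂ, Generates (fun t => √κ * B t.toNNReal ω) γ ∧
      (∀ γ' : ℝ → ℂ, Generates (fun t => √κ * B t.toNNReal ω) γ' → EqOn γ' γ (Ici 0)) ∧
      ∀ s t : ℝ, 0 < s → s < t → p (gaugeMeasure k (γ '' Icc s t))

end Vale.Agent.P164R
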