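import Vale.Agent.P153.R2.DET.Bdd

/-!
# Existence of the trace: the deterministic part

If points seen from the tip inside the region `|Z| ≤ Y ^ (1 - ε)` at small height `Y` are at
distance at most `Y ^ δ` from the boundary, `δ > ε > 0`, then the Loewner chain is generated by a
curve.
-/

open Set Filter Topology Metric

namespace Vale.Agent.P164R

open Vale.Agent.P164 Vale.Agent.P153.R2

variable {W : ℝ → ℝ} {ε δ : ℝ}

/-- The key estimate. -/
def Key (W : ℝ → ℝ) (ε δ : ℝ) : Prop :=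
  ∀ R : ℝ, ∃ y₀ : ℝ, 0 < y₀ ∧ ∀ t : ℝ, 0 ≤ t → ∀ z ∈ loewnerDomain W t, ‖z‖ ≤ R →
    (Zf W z t).im ≤ y₀ → ‖Zf W z t‖ ≤ (Zf W z t).im ^ (1 - ε) →
      Real.exp (Uf W z t) ≤ (Zf W z t).im ^ δ

lemma Zf_inv (hW : Continuous W) {t : ℝ} (ht : 0 ≤ t) {w : ℂ} (hw : 0 < w.im) :
    Zf W (invflow W t w) t = w := flow_invflow ht hW.continuousOn hw

lemma inv_mem (hW : Continuous W) {t : ℝ} (ht : 0 ≤ t) {w : ℂ} (hw : 0 < w.im) :
    invflow W t w ∈ loewnerDomain W t := invflow_mem ht hW.continuousOn hw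

lemma inv_Zf (hW : Continuous W) {t : ℝ} (ht : 0 ≤ t) {z : ℂ} (hz : z ∈ loewnerDomain W t) :
    invflow W t (Zf W z t) = z := invflow_flow ht hW.continuousOn hz

/-- the inverse maps are bounded on bounded sets, locally uniformly in time -/
lemma inv_bound (hW : Continuous W) (T r : ℝ) :
    ∃ R : ℝ, 0 < R ∧ ∀ t ∈ Icc 0 T, ∀ w : ℂ, 0 < w.im → ‖w‖ ≤ r → ‖invflow W t w‖ ≤ R := by
  obtain ⟨M, hM0, hM⟩ := ARCX.exists_M hW T
  refine ⟨max (r + M) (M + 1) + 2 * |T|, by positivity, fun t ht w hw hr => ?_⟩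
  have hz := inv_mem hW ht.1 hw
  have hg := gf_sol ht.1 hz
  have h1 : ‖gf W (invflow W t w) t‖ ≤ max (r + M) (M + 1) := by
    refine le_trans ?_ (le_max_left _ _)
    rw [gf, Zf_inv hW ht.1 hw]
    refine (norm_add_le _ _).trans (add_le_add hr ?_)
    rw [Complex.norm_real, Real.norm_eq_abs]
    exact hM t ht
  have h2 := ARCX.sol_bound_inv ht.1 hg (fun u hu => hM u ⟨hu.1, hu.2.trans ht.2⟩)
    (le_max_right (r + M) (M + 1)) h1
  have h3 : t ≤ |T| := ht.2.trans (le_abs_self T)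
  linarith

lemma norm_deriv_inv (hW : Continuous W) {t : ℝ} (ht : 0 ≤ t) {w : ℂ} (hw : 0 < w.im) :
    ‖(dflow W t (invflow W t w))⁻¹‖ = Real.exp (Uf W (invflow W t w) t) / w.im := by
  rw [norm_inv, norm_dflow ht hW.continuousOn (inv_mem hW ht hw),
    flow_invflow ht hW.continuousOn hw, Uf, Real.exp_neg]
  field_simp

/-- The key estimate as a bound for the derivative of the inverse maps. -/
def DerBound (W : ℝ → ℝ) (ε δ T y₀ : ℝ) : Prop :=
  ∀ t ∈ Icc 0 T, ∀ w : ℂ, 0 < w.im → w.im ≤ y₀ → ‖w‖ ≤ w.im ^ (1 - ε) →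
    ‖(dflow W t (invflow W t w))⁻¹‖ ≤ w.im ^ (δ - 1)

lemma derBound_of_key (hW : Continuous W) (hK : Key W ε δ) (hε1 : ε ≤ 1) (T : ℝ) :
    ∃ y₀ : ℝ, 0 < y₀ ∧ y₀ ≤ 1 ∧ DerBound W ε δ T y₀ := by
  obtain ⟨R, -, hR⟩ := inv_bound hW T 1
  obtain ⟨y₀, hy₀, h⟩ := hK R
  refine ⟨min y₀ 1, by positivity, min_le_right _ _, fun t ht w hw hwy hc => ?_⟩
  have hw1 : w.im ≤ 1 := hwy.trans (min_le_right _ _)
  have h1 : ‖w‖ ≤ 1 := hc.trans (Real.rpow_le_one hw.le hw1 (by linarith))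
  have h2 := h t ht.1 _ (inv_mem hW ht.1 hw) (hR t ht w hw h1)
  rw [Zf_inv hW ht.1 hw] at h2
  have h3 := h2 (hwy.trans (min_le_left _ _)) hc
  rw [norm_deriv_inv hW ht.1 hw, Real.rpow_sub_one hw.ne']
  exact div_le_div_of_nonneg_right h3 hw.le

lemma im_mulI (y : ℝ) : ((y : ℂ) * Complex.I).im = y := by simp

lemma norm_mulI {y : ℝ} (hy : 0 ≤ y) : ‖(y : ℂ) * Complex.I‖ = y := by
  simp [abs_of_nonneg hy]

lemma self_le_rpow {y : ℝ} (hy : 0 < y) (hy1 : y ≤ 1) (hε : 0 ≤ ε) : y ≤ y ^ (1 - ε) := by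
  have := Real.rpow_le_rpow_of_exponent_ge hy hy1 (show 1 - ε ≤ 1 by linarith)
  rwa [Real.rpow_one] at this

/-- vertical displacement -/
lemma vert (hW : Continuous W) (hε : 0 ≤ ε) (hδ : 0 < δ) {T y₀ : ℝ} (hy1 : y₀ ≤ 1)
    (hD : DerBound W ε δ T y₀) {t : ℝ} (ht : t ∈ Icc 0 T) {a y : ℝ} (ha : 0 < a) (hay : a ≤ y)
    (hy : y ≤ y₀) :
    ‖invflow W t ((y : ℂ) * Complex.I) - invflow W t ((a : ℂ) * Complex.I)‖ ≤ y ^ δ / δ := by
  have hder : ∀ u : ℝ, 0 < u → HasDerivAt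
      (fun v : ℝ => invflow W t ((v : ℂ) * Complex.I) - invflow W t ((a : ℂ) * Complex.I))
      ((dflow W t (invflow W t ((u : ℂ) * Complex.I)))⁻¹ * Complex.I) u := by
    intro u hu
    have h1 : HasDerivAt (fun v : ℂ => invflow W t (v * Complex.I))
        ((dflow W t (invflow W t ((u : ℂ) * Complex.I)))⁻¹ * Complex.I) (u : ℂ) := by
      have h2 := hasDerivAt_invflow ht.1 hW.continuousOn
        (w := (u : ℂ) * Complex.I) (by rw [im_mulI]; exact hu)
      have h3 : HasDerivAt (fun v : ℂ => v * Complex.I) Complex.I (u : ℂ) := by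
        simpa using (hasDerivAt_id (u : ℂ)).mul_const Complex.I
      exact HasDerivAt.comp (u : ℂ) h2 h3
    exact h1.comp_ofReal.sub_const _
  have hB : ∀ u : ℝ, 0 < u → HasDerivAt (fun v : ℝ => v ^ δ / δ) (u ^ (δ - 1)) u := by
    intro u hu
    have h1 := (Real.hasDerivAt_rpow_const (x := u) (p := δ) (Or.inl hu.ne')).div_const δ
    refine h1.congr_deriv ?_
    field_simp
  have key := image_norm_le_of_norm_deriv_right_le_deriv_boundary' (a := a) (b := y)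
    (f := fun v : ℝ => invflow W t ((v : ℂ) * Complex.I) - invflow W t ((a : ℂ) * Complex.I))
    (f' := fun u => (dflow W t (invflow W t ((u : ℂ) * Complex.I)))⁻¹ * Complex.I)
    (fun u hu => (hder u (ha.trans_le hu.1)).continuousAt.continuousWithinAt)
    (fun u hu => (hder u (ha.trans_le hu.1)).hasDerivWithinAt)
    (B := fun v : ℝ => v ^ δ / δ) (B' := fun u => u ^ (δ - 1))
    (by simp only [sub_self, norm_zero]; positivity)
    (fun u hu => (hB u (ha.trans_le hu.1)).continuousAt.continuousWithinAt)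
    (fun u hu => (hB u (ha.trans_le hu.1)).hasDerivWithinAt)
    (fun u hu => by
      have hu0 : 0 < u := ha.trans_le hu.1
      have hu1 : u ≤ y₀ := hu.2.le.trans hy
      have h1 := hD t ht ((u : ℂ) * Complex.I) (by rw [im_mulI]; exact hu0)
        (by rw [im_mulI]; exact hu1)
        (by rw [im_mulI, norm_mulI hu0.le]; exact self_le_rpow hu0 (hu1.trans hy1) hε)
      rw [im_mulI] at h1
      rw [norm_mul, Complex.norm_I, mul_one]
      exact h1)
  exact key ⟨hay, le_rfl⟩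

/-- horizontal displacement -/
lemma horiz (hW : Continuous W) (hε : 0 ≤ ε) {T y₀ : ℝ} (hy1 : y₀ ≤ 1)
    (hD : DerBound W ε δ T y₀) {t : ℝ} (ht : t ∈ Icc 0 T) {w : ℂ} (hw : 0 < w.im)
    (hy : w.im ≤ y₀) (hc : ‖w‖ ≤ w.im ^ (1 - ε)) :
    ‖invflow W t w - invflow W t ((w.im : ℂ) * Complex.I)‖ ≤ w.im ^ (δ - ε) := by
  set S : Set ℂ := {v | v.im = w.im} ∩ closedBall 0 (w.im ^ (1 - ε)) with hS
  have hconv : Convex ℝ S := by
    refine Convex.inter ?_ (convex_closedBall _ _)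
    intro x hx y hy a b _ _ hab
    simp only [mem_ofPred_eq] at hx hy ⊢
    simp only [Complex.add_im, Complex.smul_im, hx, hy, smul_eq_mul]
    rw [← add_mul, hab, one_mul]
  have h1 := hconv.norm_image_sub_le_of_norm_hasDerivWithin_le (f := invflow W t)
    (f' := fun v => (dflow W t (invflow W t v))⁻¹) (C := w.im ^ (δ - 1))
    (x := (w.im : ℂ) * Complex.I) (y := w)
    (fun v hv => (hasDerivAt_invflow ht.1 hW.continuousOn
      (by rw [show v.im = w.im from hv.1]; exact hw)).hasDerivWithinAt)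
    (fun v hv => by
      have e : v.im = w.im := hv.1
      have h2 := hD t ht v (by rw [e]; exact hw) (by rw [e]; exact hy)
        (by rw [e]; simpa using hv.2)
      rwa [e] at h2)
    ⟨im_mulI _, by
      rw [mem_closedBall, dist_zero_right, norm_mulI hw.le]
      exact self_le_rpow hw (hy.trans hy1) hε⟩
    ⟨rfl, by simpa using hc⟩
  refine h1.trans ?_
  have h2 : ‖w - (w.im : ℂ) * Complex.I‖ ≤ w.im ^ (1 - ε) := by
    have e : w - (w.im : ℂ) * Complex.I = (w.re : ℂ) := by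
      apply Complex.ext <;> simp
    rw [e, Complex.norm_real, Real.norm_eq_abs]
    exact (Complex.abs_re_le_norm w).trans hc
  calc w.im ^ (δ - 1) * ‖w - (w.im : ℂ) * Complex.I‖ ≤ w.im ^ (δ - 1) * w.im ^ (1 - ε) :=
        mul_le_mul_of_nonneg_left h2 (by positivity)
    _ = w.im ^ (δ - ε) := by
        rw [← Real.rpow_add hw]
        congr 1
        ring

/-- The candidate for the trace. -/
noncomputable def tip (W : ℝ → ℝ) (t : ℝ) : ℂ :=
  limUnder atTop fun n : ℕ => invflow W t (((1 / ((n : ℝ) + 1) : ℝ) : ℂ) * Complex.I)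

lemma tendsto_rpow_seq (hδ : 0 < δ) :
    Tendsto (fun n : ℕ => (1 / ((n : ℝ) + 1)) ^ δ / δ) atTop (𝓝 0) := by
  have h1 := (tendsto_one_div_add_atTop_nhds_zero_nat (𝕜 := ℝ)).rpow_const (p := δ) (Or.inr hδ.le)
  rw [Real.zero_rpow hδ.ne'] at h1
  simpa using h1.div_const δ

lemma tendsto_tip (hW : Continuous W) (hε : 0 ≤ ε) (hδ : 0 < δ) {T y₀ : ℝ} (hy₀ : 0 < y₀)
    (hy1 : y₀ ≤ 1) (hD : DerBound W ε δ T y₀) {t : ℝ} (ht : t ∈ Icc 0 T) :
    Tendsto (fun n : ℕ => invflow W t (((1 / ((n : ℝ) + 1) : ℝ) : ℂ) * Complex.I)) atTop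
      (𝓝 (tip W t)) := by
  refine CauchySeq.tendsto_limUnder ?_
  rw [Metric.cauchySeq_iff']
  intro η hη
  have h1 := (tendsto_rpow_seq hδ).eventually (gt_mem_nhds hη)
  have h2 := (tendsto_one_div_add_atTop_nhds_zero_nat (𝕜 := ℝ)).eventually (ge_mem_nhds hy₀)
  obtain ⟨N, hN1, hN2⟩ := (h1.and h2).exists
  refine ⟨N, fun n hn => ?_⟩
  rw [dist_comm, dist_eq_norm]
  refine lt_of_le_of_lt (vert hW hε hδ hy1 hD ht (by positivity) ?_ hN2) hN1
  exact Nat.one_div_le_one_div hn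

lemma tip_close_vert (hW : Continuous W) (hε : 0 ≤ ε) (hδ : 0 < δ) {T y₀ : ℝ}
    (hy1 : y₀ ≤ 1) (hD : DerBound W ε δ T y₀) {t : ℝ} (ht : t ∈ Icc 0 T) {y : ℝ} (hy : 0 < y)
    (hyy : y ≤ y₀) : ‖invflow W t ((y : ℂ) * Complex.I) - tip W t‖ ≤ y ^ δ / δ := by
  have h1 := ((tendsto_tip hW hε hδ (hy.trans_le hyy) hy1 hD ht).const_sub
    (invflow W t ((y : ℂ) * Complex.I))).norm
  refine le_of_tendsto h1 ?_
  filter_upwards [(tendsto_one_div_add_atTop_nhds_zero_nat (𝕜 := ℝ)).eventually (ge_mem_nhds hy)]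
    with n hn
  exact vert hW hε hδ hy1 hD ht (by positivity) hn hyy

lemma tip_close (hW : Continuous W) (hε : 0 ≤ ε) (hδ : 0 < δ) {T y₀ : ℝ}
    (hy1 : y₀ ≤ 1) (hD : DerBound W ε δ T y₀) {t : ℝ} (ht : t ∈ Icc 0 T) {w : ℂ} (hw : 0 < w.im)
    (hy : w.im ≤ y₀) (hc : ‖w‖ ≤ w.im ^ (1 - ε)) :
    ‖invflow W t w - tip W t‖ ≤ w.im ^ (δ - ε) + w.im ^ δ / δ := by
  have h1 := horiz hW hε hy1 hD ht hw hy hc
  have h2 := tip_close_vert hW hε hδ hy1 hD ht hw hy
  calc ‖invflow W t w - tip W t‖ = ‖(invflow W t w - invflow W t ((w.im : ℂ) * Complex.I)) +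
        (invflow W t ((w.im : ℂ) * Complex.I) - tip W t)‖ := by congr 1; ring
    _ ≤ _ := (norm_add_le _ _).trans (add_le_add h1 h2)

lemma exp_Uf_le_im (hW : Continuous W) {t : ℝ} (ht : 0 ≤ t) {z : ℂ}
    (hz : z ∈ loewnerDomain W t) : Real.exp (Uf W z t) ≤ z.im := by
  have h1 := Uf_le hW le_rfl ht hz
  rw [Uf_zero] at h1
  have h2 := Real.exp_le_exp.2 h1
  rwa [Real.exp_log (im_pos_of_dom ht hz)] at h2

/-- continuity of the inverse maps in time -/
lemma inv_cont_time (hW : Continuous W) {w : ℂ} (hw : 0 < w.im) :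
    ContinuousOn (fun t => invflow W t w) (Ici 0) := by
  intro t₀ ht₀
  have ht₀' : 0 ≤ t₀ := ht₀
  obtain ⟨R, hR0, hR⟩ := inv_bound hW (t₀ + 1) (‖w‖ + w.im / 2)
  rw [Metric.continuousWithinAt_iff]
  intro η hη
  set L : ℝ := R / (w.im / 2) with hL
  have hL0 : 0 < L := by positivity
  have hz₀ := inv_mem hW ht₀' hw
  obtain ⟨d, hd, hst⟩ := flow_stable hW ht₀' hz₀ (ε := min (w.im / 2) (η / L)) (by positivity)
  refine ⟨min d 1, by positivity, fun t ht htd => ?_⟩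
  have ht' : 0 ≤ t := ht
  rw [Real.dist_eq] at htd
  obtain ⟨h1, h2, -⟩ := hst (invflow W t₀ w) W t (by simpa using hd) hW
    (fun s _ => by simpa using hd) (htd.trans_le (min_le_left _ _)) ht'
  rw [Zf_inv hW ht₀' hw] at h2
  have htT : t ∈ Icc 0 (t₀ + 1) := by
    have := (abs_lt.1 (htd.trans_le (min_le_right _ _))).2
    exact ⟨ht', by linarith⟩
  have him : ∀ v ∈ ball w (w.im / 2), w.im / 2 < v.im := by
    intro v hv
    rw [mem_ball, dist_eq_norm] at hv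
    have h3 := (Complex.abs_im_le_norm (v - w)).trans_lt hv
    rw [Complex.sub_im] at h3
    have := (abs_lt.1 h3).1
    linarith
  have h3 := (convex_ball w (w.im / 2)).norm_image_sub_le_of_norm_hasDerivWithin_le
    (f := invflow W t) (f' := fun v => (dflow W t (invflow W t v))⁻¹) (C := L)
    (x := Zf W (invflow W t₀ w) t) (y := w)
    (fun v hv => (hasDerivAt_invflow ht' hW.continuousOn
      (lt_trans (by positivity) (him v hv))).hasDerivWithinAt)
    (fun v hv => by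
      have hv0 : 0 < v.im := lt_trans (by positivity) (him v hv)
      rw [norm_deriv_inv hW ht' hv0]
      have h4 : ‖v‖ ≤ ‖w‖ + w.im / 2 := by
        rw [mem_ball, dist_eq_norm] at hv
        have := norm_add_le w (v - w)
        rw [add_sub_cancel] at this
        linarith
      have h5 := (exp_Uf_le_im hW ht' (inv_mem hW ht' hv0)).trans
        (((le_abs_self _).trans (Complex.abs_im_le_norm _)).trans (hR t htT v hv0 h4))
      exact div_le_div₀ hR0.le h5 (by positivity) (him v hv).le)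
    (mem_ball.2 (h2.trans_le (min_le_left _ _))) (mem_ball_self (by positivity))
  rw [inv_Zf hW ht' h1] at h3
  rw [dist_eq_norm]
  refine h3.trans_lt ?_
  have h4 : ‖w - Zf W (invflow W t₀ w) t‖ < η / L := by
    rw [← dist_eq_norm, dist_comm]
    exact h2.trans_le (min_le_right _ _)
  calc L * ‖w - Zf W (invflow W t₀ w) t‖ < L * (η / L) := mul_lt_mul_of_pos_left h4 hL0
    _ = η := by field_simp

lemma tip_cont (hW : Continuous W) (hK : Key W ε δ) (hε : 0 ≤ ε) (hε1 : ε ≤ 1) (hδ : 0 < δ) :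
    ContinuousOn (tip W) (Ici 0) := by
  intro t₀ ht₀
  have ht₀' : 0 ≤ t₀ := ht₀
  obtain ⟨y₀, hy₀, hy1, hD⟩ := derBound_of_key hW hK hε1 (t₀ + 1)
  refine continuousWithinAt_of_locally_uniform_approx_of_continuousWithinAt ht₀ fun u hu => ?_
  obtain ⟨η, hη, hu'⟩ := Metric.mem_uniformity_dist.1 hu
  have h1 := (tendsto_rpow_seq hδ).eventually (gt_mem_nhds hη)
  have h2 := (tendsto_one_div_add_atTop_nhds_zero_nat (𝕜 := ℝ)).eventually (ge_mem_nhds hy₀)
  obtain ⟨N, hN1, hN2⟩ := (h1.and h2).exists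
  have hpos : (0 : ℝ) < 1 / ((N : ℝ) + 1) := by positivity
  refine ⟨Icc 0 (t₀ + 1), ?_,
    fun t => invflow W t (((1 / ((N : ℝ) + 1) : ℝ) : ℂ) * Complex.I),
    inv_cont_time hW (by rw [im_mulI]; exact hpos) t₀ ht₀, fun t ht => hu' ?_⟩
  · rw [← Ici_inter_Iic]
    exact inter_mem_nhdsWithin _ (Iic_mem_nhds (by linarith))
  · rw [dist_comm, dist_eq_norm]
    exact (tip_close_vert hW hε hδ hy1 hD ht hpos hN2).trans_lt hN1

lemma tip_zero (hW : Continuous W) (hK : Key W ε δ) (hε : 0 ≤ ε) (hε1 : ε ≤ 1) (hδ : 0 < δ) :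
    tip W 0 = (W 0 : ℂ) := by
  obtain ⟨y₀, hy₀, hy1, hD⟩ := derBound_of_key hW hK hε1 0
  have h1 := tendsto_tip hW hε hδ hy₀ hy1 hD (t := 0) ⟨le_rfl, le_rfl⟩
  have h2 : ∀ w : ℂ, 0 < w.im → invflow W 0 w = w + (W 0 : ℂ) := by
    intro w hw
    have h3 : 0 < (w + (W 0 : ℂ)).im := by simpa using hw
    have h4 := inv_Zf hW le_rfl (dom_zero.2 h3)
    rwa [Zf_zero h3, add_sub_cancel_right] at h4
  have h3 : Tendsto (fun n : ℕ => ((1 / ((n : ℝ) + 1) : ℝ) : ℂ) * Complex.I + (W 0 : ℂ)) atTop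
      (𝓝 (((0 : ℝ) : ℂ) * Complex.I + (W 0 : ℂ))) :=
    (((Complex.continuous_ofReal.tendsto 0).comp
      (tendsto_one_div_add_atTop_nhds_zero_nat (𝕜 := ℝ))).mul_const _).add_const _
  rw [Complex.ofReal_zero, zero_mul, zero_add] at h3
  refine tendsto_nhds_unique h1 (h3.congr fun n => (h2 _ ?_).symm)
  rw [im_mulI]
  positivity

lemma tip_im (hW : Continuous W) (hK : Key W ε δ) (hε : 0 ≤ ε) (hε1 : ε ≤ 1) (hδ : 0 < δ)
    {t : ℝ} (ht : 0 ≤ t) : 0 ≤ (tip W t).im := by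
  obtain ⟨y₀, hy₀, hy1, hD⟩ := derBound_of_key hW hK hε1 t
  have h1 := (Complex.continuous_im.tendsto _).comp
    (tendsto_tip hW hε hδ hy₀ hy1 hD (t := t) ⟨ht, le_rfl⟩)
  refine ge_of_tendsto' h1 fun n => ?_
  refine (im_pos_of_dom ht (inv_mem hW ht ?_)).le
  rw [im_mulI]
  positivity

lemma tip_not_mem (hW : Continuous W) (hK : Key W ε δ) (hε : 0 ≤ ε) (hε1 : ε ≤ 1) (hδ : 0 < δ)
    {s : ℝ} (hs : 0 ≤ s) : tip W s ∉ loewnerDomain W s := by
  intro hmem
  obtain ⟨y₀, hy₀, hy1, hD⟩ := derBound_of_key hW hK hε1 s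
  have h1 := tendsto_tip hW hε hδ hy₀ hy1 hD (t := s) ⟨hs, le_rfl⟩
  have h2 := (Complex.continuous_im.tendsto _).comp
    ((Zf_hasDerivAt hW hs hmem).continuousAt.tendsto.comp h1)
  have h3 : Tendsto (fun n : ℕ => 1 / ((n : ℝ) + 1)) atTop (𝓝 (Zf W (tip W s) s).im) := by
    refine h2.congr fun n => ?_
    simp only [Function.comp]
    rw [Zf_inv hW hs (by rw [im_mulI]; positivity), im_mulI]
  have h4 := tendsto_nhds_unique h3 (tendsto_one_div_add_atTop_nhds_zero_nat (𝕜 := ℝ))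
  exact (Zf_im_pos hs hmem).ne' h4

/-- A point which is never seen in the region `|Z| ≤ min (η, Y ^ (1 - ε))` stays away from the
boundary. -/
lemma U_lower (hW : Continuous W) (hε : 0 < ε) {t η : ℝ} (ht : 0 ≤ t) (hη : 0 < η) {z : ℂ}
    (hz : z ∈ loewnerDomain W t)
    (h : ∀ s ∈ Icc 0 t, ‖Zf W z s‖ ≤ η → (Zf W z s).im ^ (1 - ε) < ‖Zf W z s‖) :
    Real.log z.im - z.im ^ (2 * ε) / ε - 4 * t / η ^ 2 ≤ Uf W z t := by
  set φ : ℝ → ℝ := fun s => Uf W z s - Real.exp (Real.log (Zf W z s).im * (2 * ε)) / ε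
    + 4 * s / η ^ 2 with hφ
  have hder : ∀ s ∈ Icc 0 t, HasDerivWithinAt φ (-rate (Zf W z s) -
      Real.exp (Real.log (Zf W z s).im * (2 * ε)) * (-(2 / ‖Zf W z s‖ ^ 2) * (2 * ε)) / ε
        + 4 * 1 / η ^ 2) (Icc 0 t) s := by
    intro s hs
    exact ((Uf_hasDeriv hW hz hs).sub (((logY_hasDeriv hz hs).mul_const (2 * ε)).exp.div_const ε)).add
      (((hasDerivWithinAt_id s _).const_mul 4).div_const (η ^ 2))
  have hmono : MonotoneOn φ (Icc 0 t) := by
    refine monotoneOn_of_hasDerivWithinAt_nonneg (convex_Icc 0 t)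
      (fun s hs => (hder s hs).continuousWithinAt)
      (fun s hs => (hder s (interior_subset hs)).mono interior_subset) fun s hs => ?_
    have hs' : s ∈ Icc 0 t := interior_subset hs
    have hzs := dom_mono hs'.2 hz
    have hY := Zf_im_pos hs'.1 hzs
    have hN := Zf_norm_pos hs'.1 hzs
    rw [← Real.rpow_def_of_pos hY]
    set Z := Zf W z s
    have e1 : Z.im ^ (2 * ε) * (-(2 / ‖Z‖ ^ 2) * (2 * ε)) / ε = -(4 * Z.im ^ (2 * ε) / ‖Z‖ ^ 2) := by
      field_simp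
      ring
    rw [e1]
    have hp : 0 ≤ 4 * Z.im ^ (2 * ε) / ‖Z‖ ^ 2 := by positivity
    have hq : 0 ≤ 4 * 1 / η ^ 2 := by positivity
    have hs0 := sn_pos hY
    have hs1 := sn_le_one Z
    by_cases hc : ‖Z‖ ≤ η
    · have h1 := h s hs' hc
      have h2 : sn Z ≤ Z.im ^ ε := by
        rw [sn, div_le_iff₀ hN]
        calc Z.im = Z.im ^ ε * Z.im ^ (1 - ε) := by
              rw [← Real.rpow_add hY]; simp
          _ ≤ Z.im ^ ε * ‖Z‖ := mul_le_mul_of_nonneg_left h1.le (by positivity)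
      have h3 : sn Z ^ 2 ≤ Z.im ^ (2 * ε) := by
        rw [mul_comm, Real.rpow_mul hY.le, Real.rpow_two]
        exact pow_le_pow_left₀ hs0.le h2 2
      have h4 : rate Z ≤ 4 * Z.im ^ (2 * ε) / ‖Z‖ ^ 2 := by
        unfold rate
        gcongr
      linarith
    · push Not at hc
      have h3 : sn Z ^ 2 ≤ 1 := pow_le_one₀ hs0.le hs1
      have h4 : rate Z ≤ 4 * 1 / η ^ 2 := by
        unfold rate
        gcongr
      linarith
  have h1 := hmono ⟨le_rfl, ht⟩ ⟨ht, le_rfl⟩ ht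
  have hz0 := im_pos_of_dom ht hz
  have h2 : (Zf W z 0).im = z.im := by rw [Zf_zero hz0]; simp
  simp only [hφ, h2, Uf_zero, mul_zero, zero_div, add_zero] at h1
  rw [← Real.rpow_def_of_pos hz0] at h1
  have h3 : 0 ≤ Real.exp (Real.log (Zf W z t).im * (2 * ε)) / ε := by positivity
  linarith

/-- boundary points of the domain in the open half-plane lie on the curve -/
lemma mem_image_of_frontier (hW : Continuous W) (hK : Key W ε δ) (hε : 0 < ε) (hε1 : ε ≤ 1)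
    (hεδ : ε < δ) {t : ℝ} (ht : 0 ≤ t) {z₀ : ℂ} (h0 : 0 < z₀.im)
    (hcl : z₀ ∈ closure (loewnerDomain W t)) (hn : z₀ ∉ loewnerDomain W t) :
    z₀ ∈ tip W '' Icc 0 t := by
  have hδ : 0 < δ := hε.trans hεδ
  have hcomp : IsCompact (tip W '' Icc 0 t) :=
    isCompact_Icc.image_of_continuousOn ((tip_cont hW hK hε.le hε1 hδ).mono fun _ hu => hu.1)
  rw [← hcomp.isClosed.closure_eq, Metric.mem_closure_iff]
  intro e he
  obtain ⟨y₀, hy₀, hy1, hD⟩ := derBound_of_key hW hK hε1 t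
  -- the small height
  have hlim : Tendsto (fun y : ℝ => y ^ (δ - ε) + y ^ δ / δ) (𝓝[>] 0) (𝓝 0) := by
    have a1 : Tendsto (fun y : ℝ => y ^ (δ - ε)) (𝓝 0) (𝓝 0) := by
      have := (Real.continuousAt_rpow_const 0 (δ - ε) (Or.inr (by linarith))).tendsto
      rwa [Real.zero_rpow (by linarith)] at this
    have a2 : Tendsto (fun y : ℝ => y ^ δ) (𝓝 0) (𝓝 0) := by
      have := (Real.continuousAt_rpow_const 0 δ (Or.inr hδ.le)).tendsto
      rwa [Real.zero_rpow hδ.ne'] at this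
    have a3 := a1.add (a2.div_const δ)
    rw [zero_div, add_zero] at a3
    exact a3.mono_left nhdsWithin_le_nhds
  have ev1 : ∀ᶠ y in 𝓝[>] (0 : ℝ), y ≤ y₀ := nhdsWithin_le_nhds (ge_mem_nhds hy₀)
  have ev2 : ∀ᶠ y in 𝓝[>] (0 : ℝ), y ∈ Ioi 0 := self_mem_nhdsWithin
  have hev := (hlim.eventually (gt_mem_nhds (half_pos he))).and (ev1.and ev2)
  obtain ⟨η, hη1, hη2, hη⟩ := hev.exists
  have hη0 : 0 < η := hη
  set c : ℝ := Real.exp (Real.log (z₀.im / 2) - (2 * z₀.im) ^ (2 * ε) / ε - 4 * t / η ^ 2) with hc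
  have hc0 : 0 < c := Real.exp_pos _
  obtain ⟨z, hz, hd⟩ := Metric.mem_closure_iff.1 hcl (min (c / 10) (min (z₀.im / 2) (e / 2)))
    (by positivity)
  have hd1 : dist z₀ z < c / 10 := hd.trans_le (min_le_left _ _)
  have hd2 : dist z₀ z < z₀.im / 2 := hd.trans_le ((min_le_right _ _).trans (min_le_left _ _))
  have hd3 : dist z₀ z < e / 2 := hd.trans_le ((min_le_right _ _).trans (min_le_right _ _))
  have hU : Real.exp (Uf W z t) < c := by
    by_contra hcon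
    push Not at hcon
    exact hn (ball_subset_dom hW ht hz (mem_ball.2 (by linarith)))
  have him : |z₀.im - z.im| < z₀.im / 2 := by
    rw [dist_eq_norm] at hd2
    have := (Complex.abs_im_le_norm (z₀ - z)).trans_lt hd2
    rwa [Complex.sub_im] at this
  have him1 : z₀.im / 2 ≤ z.im := by linarith [(abs_lt.1 him).2]
  have him2 : z.im ≤ 2 * z₀.im := by linarith [(abs_lt.1 him).1]
  have hex : ∃ s ∈ Icc 0 t, ‖Zf W z s‖ ≤ η ∧ ‖Zf W z s‖ ≤ (Zf W z s).im ^ (1 - ε) := by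
    by_contra hcon
    push Not at hcon
    have h1 := U_lower hW hε ht hη0 hz hcon
    have h2 : Real.log (z₀.im / 2) ≤ Real.log z.im := Real.log_le_log (by positivity) him1
    have h3 : z.im ^ (2 * ε) / ε ≤ (2 * z₀.im) ^ (2 * ε) / ε := by
      have := im_pos_of_dom ht hz
      gcongr
    have h4 := Real.exp_lt_exp.1 hU
    linarith
  obtain ⟨s, hs, hs1, hs2⟩ := hex
  have hzs := dom_mono hs.2 hz
  have hY := Zf_im_pos hs.1 hzs
  have hYη : (Zf W z s).im ≤ η := ((le_abs_self _).trans (Complex.abs_im_le_norm _)).trans hs1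
  have h1 := tip_close hW hε.le hδ hy1 hD hs hY (hYη.trans hη2) hs2
  rw [inv_Zf hW hs.1 hzs] at h1
  have h2 : (Zf W z s).im ^ (δ - ε) + (Zf W z s).im ^ δ / δ ≤ η ^ (δ - ε) + η ^ δ / δ := by
    have : 0 ≤ δ - ε := by linarith
    gcongr
  refine ⟨tip W s, ⟨s, hs, rfl⟩, ?_⟩
  have h3 := dist_triangle z₀ z (tip W s)
  rw [dist_eq_norm z] at h3
  linarith

/-- **The deterministic theorem.** -/
theorem isTrace_tip (hW : Continuous W) (hK : Key W ε δ) (hε : 0 < ε) (hε1 : ε ≤ 1)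
    (hεδ : ε < δ) : IsTrace W (tip W) := by
  have hδ : 0 < δ := hε.trans hεδ
  refine ⟨tip_cont hW hK hε.le hε1 hδ, tip_zero hW hK hε.le hε1 hδ,
    fun t ht => tip_im hW hK hε.le hε1 hδ ht, fun t ht => ?_⟩
  have hsub : loewnerDomain W t ⊆ {z : ℂ | 0 < z.im} \ tip W '' Icc 0 t := by
    intro z hz
    refine ⟨im_pos_of_dom ht hz, ?_⟩
    rintro ⟨s, hs, rfl⟩
    exact tip_not_mem hW hK hε.le hε1 hδ hs.1 (dom_mono hs.2 hz)
  refine Subset.antisymm (HULL.dom_subset_unbComp hW ht hsub) fun z hz => ?_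
  obtain ⟨R, hR⟩ := DET.exists_bdd hW ht
  set S : Set ℂ := {z : ℂ | 0 < z.im} \ tip W '' Icc 0 t with hS
  have hCS := connectedComponentIn_subset S z
  have hmeet : (connectedComponentIn S z ∩ loewnerDomain W t).Nonempty := by
    by_contra hcon
    refine hz.2 ((isBounded_closedBall (x := (0 : ℂ)) (r := R)).subset fun w hw => ?_)
    rw [mem_closedBall, dist_zero_right]
    by_contra h1
    push Not at h1
    exact hcon ⟨w, hw, hR w (hCS hw).1 h1⟩
  have h1 := isPreconnected_connectedComponentIn.subset_left_of_subset_union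
    (isOpen_dom hW ht) (isClosed_closure (s := loewnerDomain W t)).isOpen_compl
    (disjoint_left.2 fun w hw hw' => hw' (subset_closure hw)) (fun w hw => ?_) hmeet
  · exact h1 (mem_connectedComponentIn hz.1)
  · by_cases h2 : w ∈ loewnerDomain W t
    · exact Or.inl h2
    · exact Or.inr fun h3 =>
        (hCS hw).2 (mem_image_of_frontier hW hK hε hε1 hεδ ht (hCS hw).1 h3 h2)

end Vale.Agent.P164R
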