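import Vale.Agent.P164.Bdl.B10
import Vale.Agent.P164R.Det

/-!
# Existence of the trace: the probabilistic estimate

The function `Υ ^ a * Y ^ p * |Z| ^ (-s)` of the state of a point is a supermartingale for
`s = (8 - κ) / (2 κ)`, `p = (8 - κ) / 16`, `a = s - p`.
-/

open Set Filter Topology Metric MeasureTheory ProbabilityTheory
open scoped NNReal ENNReal

namespace Vale.Agent.P164R

open Vale.Agent.P164

/-- exponent of `|Z|⁻¹` -/
noncomputable def sE (κ : ℝ) : ℝ := (8 - κ) / (2 * κ)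

/-- exponent of `Y` -/
noncomputable def pE (κ : ℝ) : ℝ := (8 - κ) / 16

/-- exponent of `Υ` -/
noncomputable def aE (κ : ℝ) : ℝ := sE κ - pE κ

/-- the supermartingale -/
noncomputable def FF (κ : ℝ) (Z : ℂ) (U : ℝ) : ℝ := Real.exp (aE κ * U) * hY (pE κ) (sE κ) Z

variable {κ : ℝ}

lemma sE_pos (h0 : 0 < κ) (h8 : κ < 8) : 0 < sE κ := by
  unfold sE
  have : 0 < 8 - κ := by linarith
  positivity

lemma pE_pos (h8 : κ < 8) : 0 < pE κ := by
  unfold pE
  linarith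

lemma aE_eq (h0 : 0 < κ) : aE κ = (8 - κ) ^ 2 / (16 * κ) := by
  unfold aE sE pE
  field_simp
  ring

lemma aE_pos (h0 : 0 < κ) (h8 : κ < 8) : 0 < aE κ := by
  rw [aE_eq h0]
  have : 0 < 8 - κ := by linarith
  positivity

lemma FF_pos (Z : ℂ) (U : ℝ) : 0 < FF κ Z U := mul_pos (Real.exp_pos _) (hY_pos _ _ _)

lemma FF_eq (Z : ℂ) (U : ℝ) :
    FF κ Z U = Real.exp (aE κ * U + pE κ * Real.log Z.im - sE κ * Real.log ‖Z‖) := by
  rw [FF, hY, log_normsq, ← Real.exp_add]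
  congr 1
  ring

variable {Ω : Type*} [MeasurableSpace Ω] {P : Measure Ω} {W : ℝ → Ω → ℝ}

lemma FF_super (h0 : 0 < κ) (h8 : κ < 8) (hW : IsDrv κ P W) (z : ℂ) {s t : ℝ} (hs : 0 ≤ s)
    (hst : s ≤ t) {A : Set Ω} (hA : MeasurableSet[past W s] A) :
    ∫⁻ ω in A, ENNReal.ofReal (St (FF κ) (fun u => W u ω) z t) ∂P ≤
      ∫⁻ ω in A, ENNReal.ofReal (St (FF κ) (fun u => W u ω) z s) ∂P := by
  have hc : ∀ U, HasDerivAt (fun U => Real.exp (aE κ * U)) (aE κ * Real.exp (aE κ * U)) U := by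
    intro U
    have := ((hasDerivAt_id U).const_mul (aE κ)).exp
    simpa [mul_comm] using this
  have hr := reg_pow hc (by fun_prop) (pE κ) (sE κ)
  refine SmallAngle_super h0 hr (fun Z U _ => (FF_pos Z U).le) (fun Z U hZ => ?_) hW z hs hst hA
  rw [gen_pow κ (fun U => Real.exp (aE κ * U)) (fun U => aE κ * Real.exp (aE κ * U)) _ _ hZ]
  refine mul_nonpos_of_nonneg_of_nonpos (div_nonneg (hY_pos _ _ _).le (by positivity)) ?_
  have hne : Z ≠ 0 := fun h => by simp [h] at hZ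
  have h1 := sn_sq_add_cs_sq hne
  have h2 : cs Z ^ 2 = 1 - sn Z ^ 2 := by linarith
  have hs0 : 0 ≤ sn Z ^ 2 := sq_nonneg _
  have ha := aE_pos h0 h8
  have hs := sE_pos h0 h8
  have e1 : κ / 2 * sE κ * (sE κ + 2) - 4 * sE κ - κ / 2 * sE κ - 2 * pE κ + 2 * sE κ = 0 := by
    unfold sE pE
    field_simp
    ring
  have e2 : pE κ = sE κ - aE κ := by unfold aE; ring
  have e3 : Real.exp (aE κ * U) * ((κ / 2 * sE κ * (sE κ + 2) - 4 * sE κ) * cs Z ^ 2
      - κ / 2 * sE κ - 2 * pE κ + 2 * sE κ) - 4 * sn Z ^ 2 * (aE κ * Real.exp (aE κ * U)) =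
      -(Real.exp (aE κ * U) * (sn Z ^ 2 * (κ / 2 * sE κ + 2 * aE κ))) := by
    have e4 : κ / 2 * sE κ * (sE κ + 2) - 4 * sE κ = κ / 2 * sE κ - 2 * aE κ := by
      rw [e2] at e1
      linarith
    rw [h2, e4, e2]
    ring
  rw [e3]
  have := Real.exp_pos (aE κ * U)
  have h3 : 0 ≤ Real.exp (aE κ * U) * (sn Z ^ 2 * (κ / 2 * sE κ + 2 * aE κ)) := by positivity
  linarith

lemma FF_zero_le (h0 : 0 < κ) (h8 : κ < 8) {V : ℝ → ℝ} (hV : V 0 = 0) (z : ℂ) :
    St (FF κ) V z 0 ≤ 1 := by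
  by_cases hz : z ∈ loewnerDomain V 0
  · have hz0 : 0 < z.im := dom_zero.1 hz
    rw [St_of_mem hz, FF_eq, Zf_zero hz0, hV, Uf_zero, Complex.ofReal_zero, sub_zero,
      Real.exp_le_one_iff]
    have h1 : Real.log z.im ≤ Real.log ‖z‖ :=
      Real.log_le_log hz0 ((le_abs_self _).trans (Complex.abs_im_le_norm z))
    have h2 := mul_le_mul_of_nonneg_left h1 (sE_pos h0 h8).le
    have e : aE κ * Real.log z.im + pE κ * Real.log z.im = sE κ * Real.log z.im := by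
      unfold aE; ring
    linarith
  · rw [St_of_not_mem hz]
    exact zero_le_one

/-- the maximal inequality along finitely many times -/
lemma max_fin (h0 : 0 < κ) (h8 : κ < 8) (hW : IsDrv κ P W) (z : ℂ) {v : ℝ} (hv : 0 < v)
    (S : Finset ℝ) (hS : ∀ t ∈ S, 0 ≤ t) :
    P {ω | ∃ t ∈ S, v ≤ St (FF κ) (fun u => W u ω) z t} ≤ ENNReal.ofReal (1 / v) := by
  have := hW.prob
  have hc : ∀ U, HasDerivAt (fun U => Real.exp (aE κ * U)) (aE κ * Real.exp (aE κ * U)) U := by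
    intro U
    have := ((hasDerivAt_id U).const_mul (aE κ)).exp
    simpa [mul_comm] using this
  have hr := reg_pow hc (by fun_prop) (pE κ) (sE κ)
  obtain ⟨T, hT⟩ : ∃ T, 0 ≤ T ∧ ∀ t ∈ S, t ≤ T := by
    obtain ⟨b, hb⟩ := S.bddAbove
    exact ⟨max b 0, le_max_right _ _, fun t ht => (hb ht).trans (le_max_left _ _)⟩
  have key := maximal (V := fun t ω => ENNReal.ofReal (St (FF κ) (fun u => W u ω) z t))
    (m := past W) (P := P) (fun _ _ h => past_mono h) (fun t => hW.past_le) (t₀ := 0)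
    (v := ENNReal.ofReal v) (E := fun t => {ω | v ≤ St (FF κ) (fun u => W u ω) z t})
    (fun t ht => @measurableSet_le ℝ Ω _ _ _ (past W t) _ _ _ _ _ measurable_const
      (St_past' hW hr.cF ht z))
    (fun s t hs hst A hA => FF_super h0 h8 hW z hs hst hA)
    (fun t _ ω hω => ENNReal.ofReal_le_ofReal hω) (A := univ) MeasurableSet.univ S hS T hT.1 hT.2
  have h1 : ∫⁻ ω in univ, ENNReal.ofReal (St (FF κ) (fun u => W u ω) z 0) ∂P ≤ 1 := by
    rw [Measure.restrict_univ]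
    calc _ ≤ ∫⁻ _, 1 ∂P := lintegral_mono fun ω => by
          rw [← ENNReal.ofReal_one]
          exact ENNReal.ofReal_le_ofReal (FF_zero_le h0 h8 (hW.zero ω) z)
      _ = 1 := by simp
  have h2 := (le_self_add.trans key).trans h1
  rw [univ_inter] at h2
  rw [one_div, ENNReal.ofReal_inv_of_pos hv, ENNReal.le_inv_iff_mul_le, mul_comm]
  exact h2

/-- the maximal inequality -/
lemma max_all (h0 : 0 < κ) (h8 : κ < 8) (hW : IsDrv κ P W) (z : ℂ) {v : ℝ} (hv : 0 < v) :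
    P {ω | ∃ t : ℝ, 0 ≤ t ∧ z ∈ loewnerDomain (fun u => W u ω) t ∧
      v < FF κ (Zf (fun u => W u ω) z t) (Uf (fun u => W u ω) z t)} ≤ ENNReal.ofReal (1 / v) := by
  classical
  obtain ⟨q, hq⟩ := exists_surjective_nat ℚ
  set E : ℕ → Set Ω := fun n => {ω | ∃ t ∈ (Finset.range n).image (fun k => |(q k : ℝ)|),
    v ≤ St (FF κ) (fun u => W u ω) z t} with hE
  have hmono : Monotone E := by
    intro m n hmn ω hω
    obtain ⟨t, ht, h⟩ := hω
    exact ⟨t, Finset.image_subset_image (Finset.range_subset_range.2 hmn) ht, h⟩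
  have hsub : {ω | ∃ t : ℝ, 0 ≤ t ∧ z ∈ loewnerDomain (fun u => W u ω) t ∧
      v < FF κ (Zf (fun u => W u ω) z t) (Uf (fun u => W u ω) z t)} ⊆ ⋃ n, E n := by
    rintro ω ⟨t, ht, hz, hlt⟩
    have hWc := hW.cont ω
    have hY := Zf_im_pos ht hz
    have hcont : ContinuousAt (Function.uncurry (FF κ))
        (Zf (fun u => W u ω) z t, Uf (fun u => W u ω) z t) :=
      (contOn_prod (c := fun U => Real.exp (aE κ * U)) (by fun_prop)
        (hY_contOn (pE κ) (sE κ))).continuousAt (isOpen_HR.mem_nhds ⟨hY, mem_univ _⟩)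
    obtain ⟨e, he, hb⟩ := Metric.eventually_nhds_iff.1 (hcont.eventually (lt_mem_nhds hlt))
    obtain ⟨d, hd, hst⟩ := flow_stable hWc ht hz he
    obtain ⟨r, hr1, hr2⟩ := exists_rat_btwn (show t < t + d by linarith)
    obtain ⟨k, rfl⟩ := hq r
    have hr0 : (0 : ℝ) ≤ q k := ht.trans hr1.le
    obtain ⟨g1, g2, g3⟩ := hst z (fun u => W u ω) (q k) (by simpa using hd) hWc
      (fun s _ => by simpa using hd) (by rw [abs_lt]; constructor <;> linarith) hr0
    refine mem_iUnion.2 ⟨k + 1, q k, Finset.mem_image.2 ⟨k, by simp, abs_of_nonneg hr0⟩, ?_⟩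
    rw [St_of_mem g1]
    refine le_of_lt (hb (y := (Zf (fun u => W u ω) z (q k), Uf (fun u => W u ω) z (q k))) ?_)
    rw [Prod.dist_eq, max_lt_iff]
    exact ⟨g2, g3⟩
  refine (measure_mono hsub).trans ?_
  rw [hmono.measure_iUnion]
  refine iSup_le fun n => max_fin h0 h8 hW z hv _ fun t ht => ?_
  obtain ⟨k, -, rfl⟩ := Finset.mem_image.1 ht
  exact abs_nonneg _

/-- the small exponent -/
noncomputable def eE (κ : ℝ) : ℝ := aE κ / (2 * (sE κ + 4 + 2 * aE κ))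

lemma eE_pos (h0 : 0 < κ) (h8 : κ < 8) : 0 < eE κ := by
  have := aE_pos h0 h8
  have := sE_pos h0 h8
  unfold eE
  positivity

lemma eE_le (h0 : 0 < κ) (h8 : κ < 8) : eE κ ≤ 1 := by
  have := aE_pos h0 h8
  have := sE_pos h0 h8
  unfold eE
  rw [div_le_one (by positivity)]
  linarith

lemma eE_mul (h0 : 0 < κ) (h8 : κ < 8) : eE κ * (sE κ + 4 + 2 * aE κ) = aE κ / 2 := by
  have := aE_pos h0 h8
  have := sE_pos h0 h8
  unfold eE
  field_simp

/-- the bad event at scale `exp (-n)` in the disc of radius `R` -/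
def Bad (V : ℝ → ℝ) (ε : ℝ) (R n : ℕ) : Prop :=
  ∃ t : ℝ, 0 ≤ t ∧ ∃ z ∈ loewnerDomain V t, ‖z‖ ≤ R ∧ -((n : ℝ) + 1) ≤ Real.log (Zf V z t).im ∧
    Real.log (Zf V z t).im ≤ -(n : ℝ) ∧
    Real.log ‖Zf V z t‖ ≤ (1 - ε) * Real.log (Zf V z t).im ∧
    2 * ε * Real.log (Zf V z t).im < Uf V z t

/-- mesh of the lattice -/
noncomputable def mesh (ε : ℝ) (n : ℕ) : ℝ := Real.exp (-(2 * ε * ((n : ℝ) + 1))) / 160

/-- lattice point -/
noncomputable def lat (ε : ℝ) (n : ℕ) (j : ℤ × ℤ) : ℂ := ⟨mesh ε n * j.1, mesh ε n * j.2⟩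

/-- size of the index set -/
noncomputable def NN (ε : ℝ) (R n : ℕ) : ℕ := ⌈(R : ℝ) / mesh ε n⌉₊ + 1

/-- the level -/
noncomputable def lev (κ ε : ℝ) (n : ℕ) : ℝ :=
  Real.exp (aE κ * (-(2 * ε * ((n : ℝ) + 1)) - 4) + pE κ * (-((n : ℝ) + 2))
    - sE κ * (1 - (1 - ε) * n))

lemma mesh_pos (ε : ℝ) (n : ℕ) : 0 < mesh ε n := by unfold mesh; positivity

lemma floor_close {h : ℝ} (hh : 0 < h) (x : ℝ) : |h * (⌊x / h⌋ : ℝ) - x| ≤ h := by
  have h1 := Int.floor_le (x / h)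
  have h2 := Int.lt_floor_add_one (x / h)
  rw [le_div_iff₀ hh] at h1
  rw [div_lt_iff₀ hh] at h2
  rw [abs_le]
  constructor <;> nlinarith

lemma floor_mem {h : ℝ} (hh : 0 < h) {x R : ℝ} (hx : |x| ≤ R) :
    ⌊x / h⌋ ∈ Finset.Icc (-((⌈R / h⌉₊ + 1 : ℕ) : ℤ)) ((⌈R / h⌉₊ + 1 : ℕ) : ℤ) := by
  have h1 := Int.floor_le (x / h)
  have h2 := Int.lt_floor_add_one (x / h)
  have h3 := Nat.le_ceil (R / h)
  have h4 : x / h ≤ R / h := div_le_div_of_nonneg_right (abs_le.1 hx).2 hh.le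
  have h5 : -(R / h) ≤ x / h := by
    rw [← neg_div]
    exact div_le_div_of_nonneg_right (abs_le.1 hx).1 hh.le
  rw [Finset.mem_Icc]
  constructor
  · have : (-((⌈R / h⌉₊ + 1 : ℕ) : ℤ) : ℝ) ≤ (⌊x / h⌋ : ℝ) := by
      push_cast
      linarith
    exact_mod_cast this
  · have : (⌊x / h⌋ : ℝ) ≤ (((⌈R / h⌉₊ + 1 : ℕ) : ℤ) : ℝ) := by
      push_cast
      linarith
    exact_mod_cast this

/-- on the bad event some lattice point reaches the level -/
lemma bad_lattice (h0 : 0 < κ) (h8 : κ < 8) {V : ℝ → ℝ} (hV : Continuous V) {ε : ℝ} (hε : 0 ≤ ε)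
    (hε1 : ε ≤ 1) {R n : ℕ} (h : Bad V ε R n) :
    ∃ j ∈ Finset.Icc (-(NN ε R n : ℤ)) (NN ε R n) ×ˢ Finset.Icc (-(NN ε R n : ℤ)) (NN ε R n),
      ∃ t : ℝ, 0 ≤ t ∧ lat ε n j ∈ loewnerDomain V t ∧
        lev κ ε n < FF κ (Zf V (lat ε n j) t) (Uf V (lat ε n j) t) := by
  obtain ⟨t, ht, z, hz, hR, h1, h2, h3, h4⟩ := h
  have hh := mesh_pos ε n
  set j : ℤ × ℤ := (⌊z.re / mesh ε n⌋, ⌊z.im / mesh ε n⌋) with hj
  have hY := Zf_im_pos ht hz
  have hN := Zf_norm_pos ht hz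
  have hU : -(2 * ε * ((n : ℝ) + 1)) < Uf V z t := by
    have := mul_le_mul_of_nonneg_left h1 (show 0 ≤ 2 * ε by linarith)
    linarith
  have hd : dist (lat ε n j) z ≤ Real.exp (Uf V z t) / 80 := by
    rw [dist_eq_norm]
    refine (Complex.norm_le_abs_re_add_abs_im _).trans ?_
    have a1 := floor_close hh z.re
    have a2 := floor_close hh z.im
    have a3 := (Real.exp_lt_exp.2 hU).le
    simp only [lat, hj, Complex.sub_re, Complex.sub_im]
    unfold mesh at a1 a2 ⊢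
    linarith
  have he := Real.exp_pos (Uf V z t)
  have hd' : dist (lat ε n j) z ≤ Real.exp (Uf V z t) / 20 := by linarith
  obtain ⟨hz', hp⟩ := pull_close hV ht hz hd'
  have hu := (exp_Uf_ge hV ht hz hd').2
  have hp2 : dist (Zf V (lat ε n j) t) (Zf V z t) ≤ (Zf V z t).im / 2 := by
    refine hp.trans ?_
    calc 40 * (Zf V z t).im * dist (lat ε n j) z * Real.exp (-Uf V z t)
        ≤ 40 * (Zf V z t).im * (Real.exp (Uf V z t) / 80) * Real.exp (-Uf V z t) := by gcongr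
      _ = (Zf V z t).im / 2 := by
        rw [Real.exp_neg]
        field_simp
        ring
  refine ⟨j, Finset.mem_product.2 ⟨floor_mem hh ((Complex.abs_re_le_norm z).trans hR),
    floor_mem hh ((Complex.abs_im_le_norm z).trans hR)⟩, t, ht, hz', ?_⟩
  set Z := Zf V z t
  set Z' := Zf V (lat ε n j) t
  rw [dist_eq_norm] at hp2
  have hY' : Z.im / 2 ≤ Z'.im := by
    have := (Complex.abs_im_le_norm (Z' - Z)).trans hp2
    rw [Complex.sub_im] at this
    linarith [(abs_le.1 this).1]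
  have hYN : Z.im ≤ ‖Z‖ := (le_abs_self _).trans (Complex.abs_im_le_norm _)
  have hN' : ‖Z'‖ ≤ 2 * ‖Z‖ := by
    have := norm_add_le Z (Z' - Z)
    rw [add_sub_cancel] at this
    linarith
  have hlog2 : Real.log 2 ≤ 1 := by
    have := Real.log_two_lt_d9
    linarith
  have b1 : -((n : ℝ) + 2) ≤ Real.log Z'.im := by
    have := Real.log_le_log (by positivity) hY'
    rw [Real.log_div hY.ne' two_ne_zero] at this
    linarith
  have b2 : Real.log ‖Z'‖ ≤ 1 - (1 - ε) * n := by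
    have c1 := Real.log_le_log (Zf_norm_pos ht hz') hN'
    rw [Real.log_mul two_ne_zero hN.ne'] at c1
    have c2 := mul_le_mul_of_nonneg_left h2 (show 0 ≤ 1 - ε by linarith)
    linarith
  have b3 : -(2 * ε * ((n : ℝ) + 1)) - 4 < Uf V (lat ε n j) t := by
    have c1 := Real.log_le_log (by positivity) hu
    rw [Real.log_div he.ne' (by norm_num), Real.log_exp, Real.log_exp] at c1
    have c2 : Real.log 40 ≤ 4 := by
      rw [Real.log_le_iff_le_exp (by norm_num)]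
      have e1 : Real.exp 4 = Real.exp 1 ^ 4 := by rw [← Real.exp_nat_mul]; norm_num
      have e2 := Real.exp_one_gt_d9
      rw [e1]
      calc (40 : ℝ) ≤ 2.7 ^ 4 := by norm_num
        _ ≤ Real.exp 1 ^ 4 := by gcongr; linarith
    linarith
  rw [FF_eq, lev, Real.exp_lt_exp]
  have c1 := mul_lt_mul_of_pos_left b3 (aE_pos h0 h8)
  have c2 := mul_le_mul_of_nonneg_left b1 (pE_pos h8).le
  have c3 := mul_le_mul_of_nonneg_left b2 (sE_pos h0 h8).le
  linarith

lemma card_le {ε : ℝ} (hε : 0 ≤ ε) (R n : ℕ) :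
    (((Finset.Icc (-(NN ε R n : ℤ)) (NN ε R n) ×ˢ
      Finset.Icc (-(NN ε R n : ℤ)) (NN ε R n)).card : ℕ) : ℝ) ≤
      (320 * R + 5) ^ 2 * Real.exp (4 * ε * ((n : ℝ) + 1)) := by
  rw [Finset.card_product, Int.card_Icc]
  have e1 : ((NN ε R n : ℤ) + 1 - -(NN ε R n : ℤ)).toNat = 2 * NN ε R n + 1 := by omega
  rw [e1]
  have hh := mesh_pos ε n
  have h1 : (1 : ℝ) ≤ Real.exp (2 * ε * ((n : ℝ) + 1)) := Real.one_le_exp (by positivity)
  have h2 : (R : ℝ) / mesh ε n = 160 * R * Real.exp (2 * ε * ((n : ℝ) + 1)) := by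
    unfold mesh
    rw [Real.exp_neg]
    field_simp
  have h3 := Nat.ceil_lt_add_one (show 0 ≤ (R : ℝ) / mesh ε n by positivity)
  have h4 : ((2 * NN ε R n + 1 : ℕ) : ℝ) ≤ (320 * R + 5) * Real.exp (2 * ε * ((n : ℝ) + 1)) := by
    unfold NN
    push_cast
    nlinarith
  have h5 : Real.exp (4 * ε * ((n : ℝ) + 1)) = Real.exp (2 * ε * ((n : ℝ) + 1)) ^ 2 := by
    rw [← Real.exp_nat_mul]
    congr 1
    push_cast
    ring
  rw [Nat.cast_mul, h5, ← mul_pow, ← sq]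
  exact pow_le_pow_left₀ (by positivity) h4 2

lemma prob_bad (h0 : 0 < κ) (h8 : κ < 8) (hW : IsDrv κ P W) (R : ℕ) :
    ∃ C : ℝ, 0 ≤ C ∧ ∀ n : ℕ, P {ω | Bad (fun u => W u ω) (eE κ) R n} ≤
      ENNReal.ofReal (C * Real.exp (-(aE κ / 2)) ^ n) := by
  have hε := eE_pos h0 h8
  have hε1 := eE_le h0 h8
  refine ⟨(320 * R + 5) ^ 2 *
    Real.exp (4 * eE κ + aE κ * (2 * eE κ + 4) + 2 * pE κ + sE κ), by positivity, fun n => ?_⟩
  set I := Finset.Icc (-(NN (eE κ) R n : ℤ)) (NN (eE κ) R n) ×ˢ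
    Finset.Icc (-(NN (eE κ) R n : ℤ)) (NN (eE κ) R n) with hI
  have hv : 0 < lev κ (eE κ) n := Real.exp_pos _
  have hsub : {ω | Bad (fun u => W u ω) (eE κ) R n} ⊆ ⋃ j ∈ I,
      {ω | ∃ t : ℝ, 0 ≤ t ∧ lat (eE κ) n j ∈ loewnerDomain (fun u => W u ω) t ∧
        lev κ (eE κ) n < FF κ (Zf (fun u => W u ω) (lat (eE κ) n j) t)
          (Uf (fun u => W u ω) (lat (eE κ) n j) t)} := by
    intro ω hω
    obtain ⟨j, hj, h⟩ := bad_lattice h0 h8 (hW.cont ω) hε.le hε1 hω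
    exact mem_biUnion hj h
  refine (measure_mono hsub).trans ((measure_biUnion_finset_le _ _).trans ?_)
  refine (Finset.sum_le_card_nsmul _ _ _ fun j _ => max_all h0 h8 hW _ hv).trans ?_
  rw [nsmul_eq_mul, ← ENNReal.ofReal_natCast, ← ENNReal.ofReal_mul (Nat.cast_nonneg _)]
  refine ENNReal.ofReal_le_ofReal ?_
  refine (mul_le_mul_of_nonneg_right (card_le hε.le R n) (by positivity)).trans (le_of_eq ?_)
  rw [lev, one_div, ← Real.exp_neg, ← Real.exp_nat_mul, mul_assoc, ← Real.exp_add, mul_assoc _ (Real.exp _),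
    ← Real.exp_add]
  congr 2
  have e1 := eE_mul h0 h8
  have e2 : pE κ = sE κ - aE κ := by unfold aE; ring
  rw [e2]
  linear_combination (n : ℝ) * e1

/-- **The key estimate holds almost surely.** -/
theorem ae_key (h0 : 0 < κ) (h8 : κ < 8) (hW : IsDrv κ P W) :
    ∀ᵐ ω ∂P, Key (fun u => W u ω) (eE κ) (2 * eE κ) := by
  have h1 : ∀ R : ℕ, ∀ᵐ ω ∂P, ∀ᶠ n in atTop, ω ∉ {ω | Bad (fun u => W u ω) (eE κ) R n} := by
    intro R
    obtain ⟨C, hC, h⟩ := prob_bad h0 h8 hW R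
    refine ae_eventually_notMem (ne_top_of_le_ne_top ?_ (ENNReal.tsum_le_tsum h))
    have hs : Summable fun n : ℕ => C * Real.exp (-(aE κ / 2)) ^ n :=
      (summable_geometric_of_lt_one (Real.exp_pos _).le
        (Real.exp_lt_one_iff.2 (by have := aE_pos h0 h8; linarith))).mul_left C
    rw [← ENNReal.ofReal_tsum_of_nonneg (fun n => by positivity) hs]
    exact ENNReal.ofReal_ne_top
  filter_upwards [ae_all_iff.2 h1] with ω hω R
  obtain ⟨R', hR'⟩ := exists_nat_ge R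
  obtain ⟨N, hN⟩ := eventually_atTop.1 (hω R')
  refine ⟨Real.exp (-(N : ℝ)), Real.exp_pos _, fun t ht z hz hR hy hc => ?_⟩
  have hY := Zf_im_pos ht hz
  have hN0 := Zf_norm_pos ht hz
  have h2 : Real.log (Zf (fun u => W u ω) z t).im ≤ -(N : ℝ) := by
    rw [Real.log_le_iff_le_exp hY]
    exact hy
  have h3 : (0 : ℝ) ≤ -Real.log (Zf (fun u => W u ω) z t).im := by
    have : (0 : ℝ) ≤ N := Nat.cast_nonneg N
    linarith
  set n := ⌊-Real.log (Zf (fun u => W u ω) z t).im⌋₊ with hn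
  have h4 := Nat.floor_le h3
  have h5 := Nat.lt_floor_add_one (-Real.log (Zf (fun u => W u ω) z t).im)
  have h6 : N ≤ n := Nat.le_floor (by linarith)
  by_contra hcon
  push Not at hcon
  refine hN n h6 ⟨t, ht, z, hz, hR.trans hR', by linarith, by linarith, ?_, ?_⟩
  · have := Real.log_le_log hN0 hc
    rwa [Real.log_rpow hY] at this
  · have := Real.log_lt_log (by positivity) hcon
    rwa [Real.log_rpow hY, Real.log_exp] at this

/-- **Existence of the trace** for a clean driving process. -/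
theorem ae_trace (h0 : 0 < κ) (h8 : κ < 8) (hW : IsDrv κ P W) :
    ∀ᵐ ω ∂P, IsTrace (fun u => W u ω) (tip fun u => W u ω) := by
  filter_upwards [ae_key h0 h8 hW] with ω hω
  have := eE_pos h0 h8
  exact isTrace_tip (hW.cont ω) hω this (eE_le h0 h8) (by linarith)

end Vale.Agent.P164R
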