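import Vale.Agent.P164R.Defs
import Vale.Agent.P164R.Prob
import Vale.Agent.P164.Bdl.B18
import Vale.Agent.P167.SLE.Uniq6
import Vale.Agent.P153.R2.HULL.Bounds
import Vale.Agent.P155Z.BM

/-!
# The SLE trace exists, and its exact Hausdorff gauge
-/

open Set Filter Topology Metric MeasureTheory ProbabilityTheory
open scoped NNReal ENNReal

namespace Vale.Agent.P164R

open Vale.Agent.P164 Vale.Agent.P153.R2

/-- the expansion of the Loewner map at infinity -/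
lemma expansion {W : ℝ → ℝ} (hW : Continuous W) {t : ℝ} (ht : 0 ≤ t) :
    ∃ C R : ℝ, ∀ z ∈ loewnerDomain W t, R ≤ ‖z‖ →
      ‖gf W z t - (z + 2 * t / z)‖ ≤ C / ‖z‖ ^ 2 := by
  obtain ⟨M, hM0, hM⟩ := ARCX.exists_M hW (t + 1)
  have hq : 0 < √(t + 1) := Real.sqrt_pos.2 (by linarith)
  set A : ℝ := √(t + 1) + M with hA
  have hA0 : 0 < A := by positivity
  refine ⟨4 * A * t, 2 * M + 4 * √(t + 1), fun z hz hR => ?_⟩
  have hz0 := im_pos_of_dom ht hz
  obtain ⟨-, h1⟩ := HULL.far_alive hW (show 0 < t + 1 by linarith) hM hz0 (by linarith)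
  have hn : 0 < ‖z‖ := by linarith
  have hzne : z ≠ 0 := norm_pos_iff.1 hn
  have hder : ∀ u ∈ Icc 0 t, HasDerivWithinAt (fun u : ℝ => gf W z u - (z + 2 * u / z))
      (2 / Zf W z u - 2 * 1 / z) (Icc 0 t) u := by
    intro u hu
    refine (gf_hasDeriv hz hu).sub ?_
    have h2 : HasDerivAt (fun u : ℝ => (u : ℂ)) 1 u := Complex.ofRealCLM.hasDerivAt
    exact (((h2.const_mul 2).div_const z).const_add z).hasDerivWithinAt
  have hb : ∀ u ∈ Ico 0 t, ‖2 / Zf W z u - 2 * 1 / z‖ ≤ 4 * A / ‖z‖ ^ 2 := by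
    intro u hu
    have hu' : u ∈ Icc 0 (t + 1) := ⟨hu.1, by linarith [hu.2]⟩
    have hZ := Zf_ne_zero hu.1 (dom_mono hu.2.le hz)
    have h2 : ‖z - Zf W z u‖ ≤ A := by
      have e : z - Zf W z u = -(gf W z u - z) + (W u : ℂ) := by rw [Zf_eq]; ring
      rw [e]
      refine (norm_add_le _ _).trans (add_le_add ?_ ?_)
      · rw [norm_neg]
        exact (h1 u hu').le
      · rw [Complex.norm_real, Real.norm_eq_abs]
        exact hM u hu'
    have h3 : ‖z‖ / 2 ≤ ‖Zf W z u‖ := by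
      have := norm_sub_norm_le z (Zf W z u)
      linarith
    have e : 2 / Zf W z u - 2 * 1 / z = 2 * (z - Zf W z u) / (Zf W z u * z) := by
      field_simp
    rw [e, norm_div, norm_mul, norm_mul, Complex.norm_two]
    calc 2 * ‖z - Zf W z u‖ / (‖Zf W z u‖ * ‖z‖) ≤ 2 * A / (‖z‖ / 2 * ‖z‖) := by gcongr
      _ = 4 * A / ‖z‖ ^ 2 := by
        field_simp
        ring
  have h4 := norm_image_sub_le_of_norm_deriv_le_segment' hder hb t ⟨ht, le_rfl⟩
  simp only [gf_zero hz0, Complex.ofReal_zero, mul_zero, zero_div, add_zero, sub_self,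
    sub_zero] at h4
  refine h4.trans (le_of_eq ?_)
  ring

lemma generates_of_isTrace {W : ℝ → ℝ} (hW : Continuous W) {γ : ℝ → ℂ} (h : IsTrace W γ) :
    Generates W γ := by
  refine ⟨h.cont, h.start, h.im_nonneg, fun t ht => ⟨fun z => gf W z t, ?_⟩⟩
  have e : outer γ t = loewnerDomain W t := (h.domain_eq t ht).symm
  rw [e]
  refine ⟨fun z hz => ⟨gf W z, gf_sol ht hz, rfl⟩, fun z hz => ?_, ⟨fun z hz => ?_, ?_, ?_⟩,
    expansion hW ht⟩
  · exact ((Zf_hasDerivAt hW ht hz).add_const (W t : ℂ)).differentiableAt.differentiableWithinAt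
  · have := Zf_im_pos ht hz
    rwa [Zf_im_eq] at this
  · intro z hz z' hz' hzz
    refine Zf_injOn hW ht hz hz' ?_
    simp only [Zf_eq]
    rw [show gf W z t = gf W z' t from hzz]
  · intro w hw
    obtain ⟨z, hz, hzw⟩ := Zf_surj hW ht (w := w - (W t : ℂ)) (by simpa using hw)
    refine ⟨z, hz, ?_⟩
    simp only [gf, hzw]
    ring

lemma isTrace_of_generates {W : ℝ → ℝ} (hW : Continuous W) {γ : ℝ → ℂ} (h : Generates W γ) :
    IsTrace W γ := by
  refine ⟨h.cont, h.start, h.im_nonneg, fun t ht => ?_⟩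
  obtain ⟨G, h1, -, h2, -⟩ := h.conf t ht
  refine Subset.antisymm (fun z hz => ?_) fun z hz => ?_
  · have h3 : 0 < (gf W z t).im := by
      have := Zf_im_pos ht hz
      rwa [Zf_im_eq] at this
    obtain ⟨z', hz', hG⟩ := h2.surjOn h3
    obtain ⟨g, hg, hgt⟩ := h1 z' hz'
    have h4 : z' = z := by
      refine Zf_injOn hW ht ⟨g, hg⟩ hz ?_
      simp only [Zf_eq]
      rw [gf_eq hg ⟨ht, le_rfl⟩, hgt, hG]
    rw [← h4]
    exact hz'
  · obtain ⟨g, hg, -⟩ := h1 z hz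
    exact ⟨g, hg⟩

universe u

/-- **Existence of the trace** for every Brownian motion. -/
theorem exists_sle {κ : ℝ} (h0 : 0 < κ) (h8 : κ < 8) {Ω : Type*} [MeasurableSpace Ω]
    {P : Measure Ω} {B : ℝ≥0 → Ω → ℝ} (hB : IsBrownianReal B P) :
    ∃ γ : Ω → ℝ → ℂ, ∀ᵐ ω ∂P, IsTrace (fun t => √κ * B t.toNNReal ω) (γ ω) := by
  obtain ⟨W, hW, hWB⟩ := exists_drv h0.le hB
  refine ⟨fun ω => tip fun u => W u ω, ?_⟩
  filter_upwards [ae_trace h0 h8 hW, hWB] with ω h1 h2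
  exact h1.congr_drive h2

theorem segmentLaw_of {κ : ℝ} (h0 : 0 < κ) (h8 : κ < 8) {k : ℝ → ℝ} {p : ℝ≥0∞ → Prop}
    (h : ∀ (Ω : Type u) [MeasurableSpace Ω] (P : Measure Ω) (γ : Ω → ℝ → ℂ), IsSLE κ P γ →
      ∀ᵐ ω ∂P, ∀ s t : ℝ, 0 < s → s < t → p (gaugeMeasure k (γ ω '' Icc s t))) :
    SegmentLaw.{u} κ k p := by
  intro Ω _ P B hB
  obtain ⟨γ, hγ⟩ := exists_sle h0 h8 hB
  filter_upwards [hγ, h Ω P γ ⟨B, hB, hγ⟩, hB.cont] with ω h1 h2 h3
  have hc : Continuous fun t : ℝ => √κ * B t.toNNReal ω :=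
    continuous_const.mul (h3.comp continuous_real_toNNReal)
  exact ⟨γ ω, generates_of_isTrace hc h1, fun γ' hγ' t ht =>
    Vale.Agent.P167.SLE.isTrace_unique hc (isTrace_of_generates hc hγ') h1 ht, h2⟩

end Vale.Agent.P164R
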